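import Crest.Agent.R165.D1.Gauge
import Crest.Agent.R165.D1.Inv
import Crest.Agent.R165.D1.Alg

/-! # R165 block D1: from one-particle data to gauge bounds; algebra of the sources and of `loc2` (owner helper82; route.md §D1)
The public statements live in the sub-files (same names and types):
`Conv` (op_h1, op_sub), `Gauge` (bdAx_BdU, pauli_wedge, final_cst, bdT_cst, BdT.coef, bdAx_BdT),
`Src` (lcOf_mono, lcOf_fac, lcS_mono, lcS_fac, flipS_muE, extK_inl, tau_sq, muE_cst_mul, cstA_idem, exA_cst, coefT_prod),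
`Jet` (loc2_shift, loc2_rot, loc2_ref), `Inv` (nuF_zF, loc2_mX, loc2_invariant), `Alg` (sp_alg, sp_loc_mu).
Reusable API in namespace `R165.D1`: `Base` (evP, gmapE, deg2, ev2, tr), `Conv` (GBd_conv, GBd_lin), `Src` (mem_lcS, dTau), `Alg` (loc2_mem). -/
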